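import Vale.Agent.P002.Prod.Main

/-!
Potential density of integral points for all products of curves.
-/

namespace Vale.Agent.P002.Special.ProductDensity

open Matrix Vale.Agent.P002

/-- A product of surface groups and free groups. -/
abbrev Gam {k l : ℕ} (n s : Fin k → ℕ) (d : Fin l → ℕ) : Type :=
  (∀ i, Surf (n i) (s i)) × (∀ j, FreeGroup (Fin (d j)))

variable {k l r : ℕ} {n s : Fin k → ℕ} {d : Fin l → ℕ}

/-- Every loop around a puncture goes into its prescribed class. -/
def InClasses (K : ∀ i, Fin (s i) → SpecialLinearGroup (Fin r) ℂ)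
    (ρ : Gam n s d →* SpecialLinearGroup (Fin r) ℂ) : Prop :=
  ∀ i j, ∃ T, ρ (Pi.mulSingle i (surfMark (n i) (s i) j), 1) = T * K i j * T⁻¹

/-- All entries are algebraic integers of `L`. -/
def IntIn (L : IntermediateField ℚ ℂ) (ρ : Gam n s d →* SpecialLinearGroup (Fin r) ℂ) : Prop :=
  ∀ g a b, (ρ g).1 a b ∈ L ∧ IsIntegral ℤ ((ρ g).1 a b)

/-- Every invariant subspace has an invariant complement. -/
def Semisimple (ρ : Gam n s d →* SpecialLinearGroup (Fin r) ℂ) : Prop :=
  ∀ W : Submodule ℂ (Fin r → ℂ), (∀ g, ∀ v ∈ W, (ρ g).1 *ᵥ v ∈ W) →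
    ∃ W' : Submodule ℂ (Fin r → ℂ), (∀ g, ∀ v ∈ W', (ρ g).1 *ᵥ v ∈ W') ∧ IsCompl W W'

/-- The value of a polynomial in the entries. -/
noncomputable def value (f : MvPolynomial (Gam n s d × Fin r × Fin r) ℂ)
    (ρ : Gam n s d →* SpecialLinearGroup (Fin r) ℂ) : ℂ :=
  MvPolynomial.eval (fun v => (ρ v.1).1 v.2.1 v.2.2) f

/-- Taking equal values at conjugate representations with the prescribed classes. -/
def ConjInvariant (K : ∀ i, Fin (s i) → SpecialLinearGroup (Fin r) ℂ)
    (f : MvPolynomial (Gam n s d × Fin r × Fin r) ℂ) : Prop :=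
  ∀ ρ : Gam n s d →* SpecialLinearGroup (Fin r) ℂ, InClasses K ρ →
    ∀ T : SpecialLinearGroup (Fin r) ℂ,
      MvPolynomial.eval (fun v => (T * ρ v.1 * T⁻¹).1 v.2.1 v.2.2) f = value f ρ

/-- For a product of `k` surface groups, each of genus at least three or closed of genus at least
two, and `l` free groups: with quasi-unipotent classes at all loops around punctures, one number
field has the semisimple representations over its integers Zariski dense, seen through conjugation
invariant polynomials, among all semisimple representations with these classes. -/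
theorem result (k l m : ℕ) (n s : Fin k → ℕ)
    (hns : ∀ i, 3 ≤ n i ∨ (2 ≤ n i ∧ s i = 0)) (d : Fin l → ℕ)
    (K : ∀ i, Fin (s i) → SpecialLinearGroup (Fin (m + 2)) ℂ)
    (hK : ∀ i j, ∀ z : ℂ, (K i j).1.charpoly.IsRoot z → ∃ N : ℕ, 0 < N ∧ z ^ N = 1) :
    ∃ L : IntermediateField ℚ ℂ, FiniteDimensional ℚ L ∧
      ∀ f : MvPolynomial (Gam n s d × Fin (m + 2) × Fin (m + 2)) ℂ, ConjInvariant K f →
        (∀ ρ, InClasses K ρ → IntIn L ρ → Semisimple ρ → value f ρ = 0) →
        ∀ ρ, InClasses K ρ → Semisimple ρ → value f ρ = 0 := by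
  obtain ⟨L, hL, h⟩ := sl_density (nice_products n s hns d) (Nat.succ_pos (m + 1))
    (Sum.elim (fun x => K x.1 x.2) fun x => x.2.elim0) (by
      rintro (x | x)
      · exact hK x.1 x.2
      · exact x.2.elim0)
  have hcl : ∀ ρ : Gam n s d →* SpecialLinearGroup (Fin (m + 2)) ℂ,
      (∀ x, ∃ T, ρ (prodMark (piMark fun i => surfMark (n i) (s i))
        (piMark fun j => freeMark (d j)) x) =
          T * (Sum.elim (fun x => K x.1 x.2) fun x => x.2.elim0 :
            (Σ i, Fin (s i)) ⊕ (Σ _ : Fin l, Fin 0) → _) x * T⁻¹) ↔ InClasses K ρ := by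
    intro ρ
    refine ⟨fun h i j => h (Sum.inl ⟨i, j⟩), fun h x => ?_⟩
    rcases x with ⟨i, j⟩ | x
    · exact h i j
    · exact x.2.elim0
  exact ⟨L, hL, fun f hinv hf ρ hρ hss =>
    h f (fun σ hσ hint hs => hf σ ((hcl σ).1 hσ) hint hs)
      (fun σ hσ T => hinv σ ((hcl σ).1 hσ) T) ρ ((hcl ρ).2 hρ) hss⟩

end Vale.Agent.P002.Special.ProductDensity
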