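import Vale.Agent.P002.Punct.Main

/-!
Potential density of integral points for punctured curves of genus at least three with arbitrary
quasi-unipotent boundary classes.
-/

namespace Vale.Agent.P002.Special.PuncturedDensity

open Matrix Vale.Agent.P002

theorem val_conj {r : ℕ} (P Q : SpecialLinearGroup (Fin r) ℂ) :
    (P * Q * P⁻¹).1 = P.1 * Q.1 * P.1⁻¹ := by
  rw [adjugate_eq_inv P.2]
  rfl

theorem exists_sl_conj {m : ℕ} {N : Mat (m + 2) ℂ} {M : SpecialLinearGroup (Fin (m + 2)) ℂ}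
    (h : ∃ S : Mat (m + 2) ℂ, IsUnit S.det ∧ N = S * M.1 * S⁻¹) :
    ∃ T : SpecialLinearGroup (Fin (m + 2)) ℂ, N = (T * M * T⁻¹).1 := by
  obtain ⟨S, hS, h⟩ := h
  obtain ⟨c, hc⟩ := IsAlgClosed.exists_pow_nat_eq (S.det)⁻¹ (Nat.succ_pos (m + 1))
  have hc0 : c ≠ 0 := fun h0 => by
    rw [h0, zero_pow (Nat.succ_ne_zero _), eq_comm, inv_eq_zero] at hc
    exact hS.ne_zero hc
  have hd : (c • S).det = 1 := by
    rw [det_smul, Fintype.card_fin, hc, inv_mul_cancel₀ hS.ne_zero]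
  refine ⟨⟨c • S, hd⟩, h.trans (Eq.trans ?_ (val_conj _ M).symm)⟩
  change S * M.1 * S⁻¹ = c • S * M.1 * (c • S)⁻¹
  rw [inv_smul_mat hc0 hS.ne_zero, Matrix.smul_mul, Matrix.mul_smul, Matrix.smul_mul, smul_smul,
    inv_mul_cancel₀ hc0, one_smul]

/-- All matrix entries of a tuple. -/
def entries {n s r : ℕ} (A B : Fin n → SpecialLinearGroup (Fin r) ℂ)
    (C : Fin s → SpecialLinearGroup (Fin r) ℂ) :
    ((Fin n × Fin r × Fin r) ⊕ (Fin n × Fin r × Fin r)) ⊕ (Fin s × Fin r × Fin r) → ℂ :=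
  Sum.elim (Sum.elim (fun v => (A v.1).1 v.2.1 v.2.2) (fun v => (B v.1).1 v.2.1 v.2.2))
    (fun v => (C v.1).1 v.2.1 v.2.2)

/-- The relation of the punctured surface holds and each `C j` is conjugate to `M j`. -/
def IsRepIn {n s r : ℕ} (M : Fin s → SpecialLinearGroup (Fin r) ℂ)
    (A B : Fin n → SpecialLinearGroup (Fin r) ℂ) (C : Fin s → SpecialLinearGroup (Fin r) ℂ) :
    Prop :=
  (List.ofFn fun i => A i * B i * (A i)⁻¹ * (B i)⁻¹).prod * (List.ofFn C).prod = 1 ∧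
    ∀ j, ∃ S : SpecialLinearGroup (Fin r) ℂ, C j = S * M j * S⁻¹

/-- For genus `g + 3`, `s` punctures, rank `m + 2` and quasi-unipotent classes of the `M j` there
is a number field in `ℂ` such that the irreducible representations with these classes over its
integers are Zariski dense among those with scalar commutant, and their classes are Zariski dense
among the classes of all semisimple ones. -/
theorem result (g s m : ℕ) (M : Fin s → SpecialLinearGroup (Fin (m + 2)) ℂ)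
    (hM : ∀ j, ∀ z : ℂ, (M j).1.charpoly.IsRoot z → ∃ N : ℕ, 0 < N ∧ z ^ N = 1) :
    ∃ L : IntermediateField ℚ ℂ, FiniteDimensional ℚ L ∧
      ∀ f : MvPolynomial (((Fin (g + 3) × Fin (m + 2) × Fin (m + 2)) ⊕
          (Fin (g + 3) × Fin (m + 2) × Fin (m + 2))) ⊕ (Fin s × Fin (m + 2) × Fin (m + 2))) ℂ,
      (∀ A B C, IsRepIn M A B C →
        (∀ v, entries A B C v ∈ L ∧ IsIntegral ℤ (entries A B C v)) →
        Algebra.adjoin ℂ ((Set.range fun i => (A i).1) ∪ (Set.range fun i => (B i).1) ∪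
          (Set.range fun j => (C j).1)) = ⊤ →
        MvPolynomial.eval (entries A B C) f = 0) →
      (∀ A B C, IsRepIn M A B C →
        (∀ Y : Matrix (Fin (m + 2)) (Fin (m + 2)) ℂ,
          (∀ i, Y * (A i).1 = (A i).1 * Y ∧ Y * (B i).1 = (B i).1 * Y) →
          (∀ j, Y * (C j).1 = (C j).1 * Y) → ∃ c : ℂ, Y = c • 1) →
        MvPolynomial.eval (entries A B C) f = 0) ∧
      ((∀ A B C, IsRepIn M A B C → ∀ T : SpecialLinearGroup (Fin (m + 2)) ℂ,
          MvPolynomial.eval (entries (fun i => T * A i * T⁻¹) (fun i => T * B i * T⁻¹)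
            (fun j => T * C j * T⁻¹)) f = MvPolynomial.eval (entries A B C) f) →
      ∀ A B C, IsRepIn M A B C →
        (∀ W : Submodule ℂ (Fin (m + 2) → ℂ),
          ((∀ i, ∀ v ∈ W, (A i).1 *ᵥ v ∈ W ∧ (B i).1 *ᵥ v ∈ W) ∧
            ∀ j, ∀ v ∈ W, (C j).1 *ᵥ v ∈ W) →
          ∃ W' : Submodule ℂ (Fin (m + 2) → ℂ),
            ((∀ i, ∀ v ∈ W', (A i).1 *ᵥ v ∈ W' ∧ (B i).1 *ᵥ v ∈ W') ∧
              ∀ j, ∀ v ∈ W', (C j).1 *ᵥ v ∈ W') ∧ IsCompl W W') →
        MvPolynomial.eval (entries A B C) f = 0) := by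
  have hK : ∀ j, ((M j).1 : Mat (m + 2) ℂ).det = 1 := fun j => (M j).2
  obtain ⟨L, hL, H, hH, hHi, hirr⟩ := exists_integral_base g (fun j => (M j).1) hK hM
  refine ⟨L, hL, fun f hf => ?_⟩
  let toP : (Fin (g + 3) → SpecialLinearGroup (Fin (m + 2)) ℂ) →
      (Fin (g + 3) → SpecialLinearGroup (Fin (m + 2)) ℂ) →
      (Fin s → SpecialLinearGroup (Fin (m + 2)) ℂ) → PTup (g + 3) s (m + 2) :=
    fun A B C => mapCX (slCoe (m + 2) ℂ) ((A, B), C)
  have hcoord : ∀ A B C, coordsP (toP A B C) = entries A B C := fun A B C => by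
    funext v
    rcases v with (v | v) | v <;> rfl
  have hfam : ∀ A B C, Set.range (famP (toP A B C)) =
      (Set.range fun i => (A i).1) ∪ (Set.range fun i => (B i).1) ∪
        (Set.range fun j => (C j).1) := fun A B C => by
    ext z
    constructor
    · rintro ⟨(i | i) | j, rfl⟩
      exacts [Or.inl (Or.inl ⟨i, rfl⟩), Or.inl (Or.inr ⟨i, rfl⟩), Or.inr ⟨j, rfl⟩]
    · rintro ((⟨i, rfl⟩ | ⟨i, rfl⟩) | ⟨j, rfl⟩)
      exacts [⟨Sum.inl (Sum.inl i), rfl⟩, ⟨Sum.inl (Sum.inr i), rfl⟩, ⟨Sum.inr j, rfl⟩]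
  have hrep : ∀ A B C,
      (List.ofFn fun i => A i * B i * (A i)⁻¹ * (B i)⁻¹).prod * (List.ofFn C).prod = 1 →
      (∀ j, ∃ S : SpecialLinearGroup (Fin (m + 2)) ℂ, C j = S * M j * S⁻¹) →
      RepK (fun j => (M j).1) (toP A B C) := fun A B C hrel hcl => by
    refine ⟨⟨fun i => (A i).2, fun i => (B i).2⟩, fun j => ?_, ?_⟩
    · obtain ⟨S, hS⟩ := hcl j
      exact ⟨S.1, by rw [S.2]; exact isUnit_one,
        (congrArg Subtype.val hS).trans (val_conj S (M j))⟩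
    · rw [prodP_mapCX, show relG (A, B) * (List.ofFn C).prod = 1 from hrel, map_one]
  have hrep' : ∀ q : PTup (g + 3) s (m + 2), RepK (fun j => (M j).1) q → ∃ A B C,
      toP A B C = q ∧
      (List.ofFn fun i => A i * B i * (A i)⁻¹ * (B i)⁻¹).prod * (List.ofFn C).prod = 1 ∧
      ∀ j, ∃ S : SpecialLinearGroup (Fin (m + 2)) ℂ, C j = S * M j * S⁻¹ := fun q hq => by
    obtain ⟨⟨⟨A, B⟩, C⟩, e⟩ := exists_lift hq.1 (det_puncture hK hq.2.1)
    refine ⟨A, B, C, e, Subtype.ext ?_, fun j => ?_⟩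
    · have h := hq.2.2
      rw [← e, prodP_mapCX] at h
      exact h
    · obtain ⟨T, hT⟩ := exists_sl_conj (hq.2.1 j)
      exact ⟨T, Subtype.ext ((congrFun (congrArg Prod.snd e) j).trans hT)⟩
  have hint : ∀ q, RepK (fun j => (M j).1) q → IntP L q → IrredF (famP q) →
      MvPolynomial.eval (coordsP q) f = 0 := fun q hq hqi hqr => by
    obtain ⟨A, B, C, rfl, hrel, hcl⟩ := hrep' q hq
    rw [hcoord]
    refine hf A B C ⟨hrel, hcl⟩ (fun v => ?_) ?_
    · rw [← hcoord]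
      exact hqi v
    · rw [← hfam]
      exact hqr
  refine ⟨fun A B C ⟨hrel, hcl⟩ hs => ?_, fun hinv A B C ⟨hrel, hcl⟩ hss => ?_⟩
  · rw [← hcoord]
    exact eval_eq_zero_of_schurP hK hH hHi hirr hint (hrep A B C hrel hcl) fun Y hY =>
      hs Y (fun i => ⟨hY (Sum.inl (Sum.inl i)), hY (Sum.inl (Sum.inr i))⟩)
        fun j => hY (Sum.inr j)
  · rw [← hcoord]
    refine eval_eq_zero_of_semisimpleP hK hH hHi hirr (fun y hy S hS => ?_) hint
      (hrep A B C hrel hcl) (fun W hW => ?_)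
    · obtain ⟨A', B', C', rfl, hrel', hcl'⟩ := hrep' y hy
      let T : SpecialLinearGroup (Fin (m + 2)) ℂ := ⟨S, hS⟩
      have e : conjP S (toP A' B' C') = toP (fun i => T * A' i * T⁻¹) (fun i => T * B' i * T⁻¹)
          (fun j => T * C' j * T⁻¹) :=
        Prod.ext (Prod.ext (funext fun i => (val_conj T (A' i)).symm)
          (funext fun i => (val_conj T (B' i)).symm)) (funext fun j => (val_conj T (C' j)).symm)
      rw [e, hcoord, hcoord]
      exact hinv A' B' C' ⟨hrel', hcl'⟩ T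
    · obtain ⟨W', ⟨h1, h2⟩, h3⟩ := hss W ⟨fun i v hv =>
        ⟨hW (Sum.inl (Sum.inl i)) v hv, hW (Sum.inl (Sum.inr i)) v hv⟩,
        fun j v hv => hW (Sum.inr j) v hv⟩
      refine ⟨W', ?_, h3⟩
      rintro ((i | i) | j) v hv
      exacts [(h1 i v hv).1, (h1 i v hv).2, h2 j v hv]

end Vale.Agent.P002.Special.PuncturedDensity
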