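import Vale.Agent.P002.Full.Main

/-!
Integral points are Zariski dense in the whole `SL_r` character variety of a closed surface of
genus at least two, and in the Schur locus of the representation variety.
-/

namespace Vale.Agent.P002.Special.SurfaceDensity

open Matrix Vale.Agent.P002

/-- For genus `g + 2` and rank `m + 2`: a polynomial in the matrix entries vanishing on all
integral representations of the surface group vanishes at every representation with scalar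
commutant, and, if it is invariant under simultaneous conjugation, at every representation. -/
theorem result (g m : ℕ) :
    (∀ f : MvPolynomial ((Fin (g + 2) × Fin (m + 2) × Fin (m + 2)) ⊕
        (Fin (g + 2) × Fin (m + 2) × Fin (m + 2))) ℂ,
      (∀ q : (Fin (g + 2) → SpecialLinearGroup (Fin (m + 2)) ℤ) ×
          (Fin (g + 2) → SpecialLinearGroup (Fin (m + 2)) ℤ),
        (List.ofFn fun i => q.1 i * q.2 i * (q.1 i)⁻¹ * (q.2 i)⁻¹).prod = 1 →
          MvPolynomial.eval (Sum.elim (fun v => ((q.1 v.1).1 v.2.1 v.2.2 : ℂ))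
            (fun v => ((q.2 v.1).1 v.2.1 v.2.2 : ℂ))) f = 0) →
      ∀ p : (Fin (g + 2) → SpecialLinearGroup (Fin (m + 2)) ℂ) ×
          (Fin (g + 2) → SpecialLinearGroup (Fin (m + 2)) ℂ),
        (List.ofFn fun i => p.1 i * p.2 i * (p.1 i)⁻¹ * (p.2 i)⁻¹).prod = 1 →
        (∀ Y : Matrix (Fin (m + 2)) (Fin (m + 2)) ℂ,
          (∀ i, Y * (p.1 i).1 = (p.1 i).1 * Y ∧ Y * (p.2 i).1 = (p.2 i).1 * Y) →
            ∃ c : ℂ, Y = c • 1) →
        MvPolynomial.eval (Sum.elim (fun v => (p.1 v.1).1 v.2.1 v.2.2)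
          (fun v => (p.2 v.1).1 v.2.1 v.2.2)) f = 0) ∧
    (∀ f : MvPolynomial ((Fin (g + 2) × Fin (m + 2) × Fin (m + 2)) ⊕
        (Fin (g + 2) × Fin (m + 2) × Fin (m + 2))) ℂ,
      (∀ p : (Fin (g + 2) → SpecialLinearGroup (Fin (m + 2)) ℂ) ×
          (Fin (g + 2) → SpecialLinearGroup (Fin (m + 2)) ℂ),
        (List.ofFn fun i => p.1 i * p.2 i * (p.1 i)⁻¹ * (p.2 i)⁻¹).prod = 1 →
        ∀ S : SpecialLinearGroup (Fin (m + 2)) ℂ,
          MvPolynomial.eval (Sum.elim (fun v => (S * p.1 v.1 * S⁻¹).1 v.2.1 v.2.2)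
            (fun v => (S * p.2 v.1 * S⁻¹).1 v.2.1 v.2.2)) f =
          MvPolynomial.eval (Sum.elim (fun v => (p.1 v.1).1 v.2.1 v.2.2)
            (fun v => (p.2 v.1).1 v.2.1 v.2.2)) f) →
      (∀ q : (Fin (g + 2) → SpecialLinearGroup (Fin (m + 2)) ℤ) ×
          (Fin (g + 2) → SpecialLinearGroup (Fin (m + 2)) ℤ),
        (List.ofFn fun i => q.1 i * q.2 i * (q.1 i)⁻¹ * (q.2 i)⁻¹).prod = 1 →
          MvPolynomial.eval (Sum.elim (fun v => ((q.1 v.1).1 v.2.1 v.2.2 : ℂ))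
            (fun v => ((q.2 v.1).1 v.2.1 v.2.2 : ℂ))) f = 0) →
      ∀ p : (Fin (g + 2) → SpecialLinearGroup (Fin (m + 2)) ℂ) ×
          (Fin (g + 2) → SpecialLinearGroup (Fin (m + 2)) ℂ),
        (List.ofFn fun i => p.1 i * p.2 i * (p.1 i)⁻¹ * (p.2 i)⁻¹).prod = 1 →
        MvPolynomial.eval (Sum.elim (fun v => (p.1 v.1).1 v.2.1 v.2.2)
          (fun v => (p.2 v.1).1 v.2.1 v.2.2)) f = 0) := by
  have hint : ∀ f : MvPolynomial (Var (g + 2) (m + 2)) ℂ,
      (∀ q : (Fin (g + 2) → SpecialLinearGroup (Fin (m + 2)) ℤ) ×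
          (Fin (g + 2) → SpecialLinearGroup (Fin (m + 2)) ℤ),
        (List.ofFn fun i => q.1 i * q.2 i * (q.1 i)⁻¹ * (q.2 i)⁻¹).prod = 1 →
          MvPolynomial.eval (Sum.elim (fun v => ((q.1 v.1).1 v.2.1 v.2.2 : ℂ))
            (fun v => ((q.2 v.1).1 v.2.1 v.2.2 : ℂ))) f = 0) →
      ∀ q : Tup (g + 2) (Mat (m + 2) ℤ), IsRep q →
        MvPolynomial.eval (coords (castC q)) f = 0 := by
    intro f hf q hq
    obtain ⟨q', hq', rfl⟩ := (isRep_iff q).1 hq
    have e : coords (castC (toMat q')) = Sum.elim (fun v => ((q'.1 v.1).1 v.2.1 v.2.2 : ℂ))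
        (fun v => ((q'.2 v.1).1 v.2.1 v.2.2 : ℂ)) := by
      funext v
      rcases v with v | v <;> rfl
    rw [e]
    exact hf q' hq'
  have hcoord : ∀ p : Tup (g + 2) (SpecialLinearGroup (Fin (m + 2)) ℂ), coords (toMat p) =
      Sum.elim (fun v => (p.1 v.1).1 v.2.1 v.2.2) (fun v => (p.2 v.1).1 v.2.1 v.2.2) := fun p => by
    funext v
    rcases v with v | v <;> rfl
  refine ⟨fun f hf p hrel hs => ?_, fun f hinv hf p hrel => ?_⟩
  · rw [← hcoord p]
    exact mem_zset_of_schur ((isRep_iff _).2 ⟨p, hrel, rfl⟩)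
      (fun Y hY => hs Y fun i => ⟨hY (Sum.inl i), hY (Sum.inr i)⟩) f (hint f hf)
  · rw [← hcoord p]
    refine eval_eq_zero_of_invariant f (fun x hx S hS => ?_) (hint f hf)
      ((isRep_iff _).2 ⟨p, hrel, rfl⟩)
    obtain ⟨q, hq, rfl⟩ := (isRep_iff x).1 hx
    let T : SpecialLinearGroup (Fin (m + 2)) ℂ := ⟨S, hS⟩
    have h := hinv q hq T
    rw [← hcoord q] at h
    have e : coords (conjT S (toMat q)) = Sum.elim
        (fun v => (T * q.1 v.1 * T⁻¹).1 v.2.1 v.2.2)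
        (fun v => (T * q.2 v.1 * T⁻¹).1 v.2.1 v.2.2) := by
      funext v
      rcases v with v | v
      · change (S * (q.1 v.1).1 * S⁻¹) v.2.1 v.2.2 = (S * (q.1 v.1).1 * adjugate S) v.2.1 v.2.2
        rw [adjugate_eq_inv hS]
      · change (S * (q.2 v.1).1 * S⁻¹) v.2.1 v.2.2 = (S * (q.2 v.1).1 * adjugate S) v.2.1 v.2.2
        rw [adjugate_eq_inv hS]
    rw [e]
    exact h

end Vale.Agent.P002.Special.SurfaceDensity
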